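import Mathlib.Analysis.InnerProductSpace.Basic
import Mathlib.LinearAlgebra.Eigenspace.Basic

/-!
# P352SL: the abstract algebra of dilations and special conformal maps on a space of fields
-/

set_option linter.all false

open scoped ComplexConjugate
open Complex (I)

namespace Vale.Agent.P352SL

variable {W H : Type*} [AddCommGroup W] [Module ℂ W] [NormedAddCommGroup H]
  [InnerProductSpace ℂ H]

/-- the hypotheses -/
structure Dat (ip : W →ₗ[ℂ] H) (Dg S K : Module.End ℂ W) : Prop where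
  inj : ∀ w, ip w = 0 → w = 0
  ds : ∀ w, Dg (S w) = S (Dg w)
  dk : ∀ w, Dg (K w) = K (Dg w) - (2 : ℂ) • K w
  ah : ∀ x y, inner ℂ (ip (S y - Dg y)) (ip x) + inner ℂ (ip y) (ip (S x - Dg x)) = 0
  kk : ∀ x y, inner ℂ (ip (K y)) (ip x) + inner ℂ (ip y) (ip (K x)) =
    2 * I * (inner ℂ (ip (S y)) (ip x) - inner ℂ (ip y) (ip (S x)))
  kil : ∀ (l : ℂ) w, l.re < 0 → Dg w = l • w → w = 0

/-- `Dg - l` -/
def nn (Dg : Module.End ℂ W) (l : ℂ) : Module.End ℂ W := Dg - l • 1

theorem nn_app (Dg : Module.End ℂ W) (l : ℂ) (w : W) : nn Dg l w = Dg w - l • w := rfl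

/-- generalized eigenvectors -/
def Gn (Dg : Module.End ℂ W) (l : ℂ) (w : W) : Prop := ∃ k : ℕ, (nn Dg l ^ k) w = 0

theorem pow_int {a b T : Module.End ℂ W} (h : ∀ w, a (T w) = T (b w)) (k : ℕ) (w : W) :
    (a ^ k) (T w) = T ((b ^ k) w) := by
  induction k with
  | zero => rfl
  | succ k ih => rw [pow_succ', pow_succ', Module.End.mul_apply, ih, h]; rfl

theorem Gn.map {Dg T : Module.End ℂ W} {l m : ℂ} (h : ∀ w, nn Dg m (T w) = T (nn Dg l w)) {w : W}
    (k : Gn Dg l w) : Gn Dg m (T w) := by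
  obtain ⟨n, e⟩ := k
  exact ⟨n, by rw [pow_int h, e, map_zero]⟩

/-- induction on the order -/
theorem Gn.ind {Dg : Module.End ℂ W} {l : ℂ} (P : W → Prop) (h0 : P 0)
    (hs : ∀ w, Gn Dg l w → P (nn Dg l w) → P w) {w : W} (k : Gn Dg l w) : P w := by
  obtain ⟨n, e⟩ := k
  induction n generalizing w with
  | zero => rw [show w = 0 from e]; exact h0
  | succ n ih => exact hs w ⟨_, e⟩ (ih (by rwa [pow_succ] at e))

namespace Dat

variable {ip : W →ₗ[ℂ] H} {Dg S K : Module.End ℂ W} (d : Dat ip Dg S K)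

include d

theorem z0 {w : W} (h : inner ℂ (ip w) (ip w) = 0) : w = 0 := d.inj w (inner_self_eq_zero.1 h)

theorem nk (l : ℂ) (w : W) : nn Dg (l - 2) (K w) = K (nn Dg l w) := by
  simp only [nn_app, d.dk, map_sub, map_smul, sub_smul]
  abel

theorem gk {l : ℂ} {w : W} (h : Gn Dg l w) : Gn Dg (l - 2) (K w) := h.map (d.nk l)

theorem neg {l : ℂ} (hl : l.re < 0) {w : W} (h : Gn Dg l w) : w = 0 :=
  h.ind (fun w : W => w = (0 : W)) rfl fun w _ e => d.kil l w hl (sub_eq_zero.1 e)

/-- the anti-hermitian part -/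
def aa (Dg S : Module.End ℂ W) (l : ℂ) : Module.End ℂ W := S - Dg + ((l.im : ℂ) * I) • 1

omit d in
theorem aa_app (l : ℂ) (w : W) : aa Dg S l w = S w - Dg w + ((l.im : ℂ) * I) • w := rfl

omit d in
theorem s_eq (l : ℂ) (w : W) : S w = aa Dg S l w + (l.re : ℂ) • w + nn Dg l w := by
  rw [aa_app, nn_app]
  nth_rewrite 3 [← Complex.re_add_im l]
  rw [add_smul]
  abel

theorem na (l m : ℂ) (w : W) : nn Dg m (aa Dg S l w) = aa Dg S l (nn Dg m w) := by
  simp only [nn_app, aa_app, map_sub, map_add, map_smul, d.ds, smul_sub, smul_add, smul_smul]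
  rw [mul_comm m]
  abel

theorem aah (l : ℂ) (x y : W) :
    inner ℂ (ip (aa Dg S l y)) (ip x) = -inner ℂ (ip y) (ip (aa Dg S l x)) := by
  have := d.ah x y
  simp only [aa_app, map_add, map_smul, inner_add_left, inner_add_right, inner_smul_left,
    inner_smul_right, map_mul, Complex.conj_ofReal, Complex.conj_I]
  linear_combination this

/-- the conclusion for the weight `l` -/
def Cn (Dg S : Module.End ℂ W) (l : ℂ) : Prop :=
  ∀ w, Gn Dg l w → Dg w = l • w ∧ S w = (l.re : ℂ) • w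

omit d in
theorem Cn.aa {l m : ℂ} (h : Cn Dg S m) (e : m.im = l.im) {w : W} (k : Gn Dg m w) :
    aa Dg S l w = 0 := by
  rw [aa_app, (h w k).1, (h w k).2, ← e]
  nth_rewrite 2 [← Complex.re_add_im m]
  rw [add_smul]
  abel

section step

variable {l : ℂ} (ih : ∀ m : ℂ, m.re ≤ l.re - 2 → Cn Dg S m)

include ih

theorem orth {m : ℂ} (h : m.re ≤ l.re - 2) (e : m.im = l.im) {z : W} (k : Gn Dg m z) (φ : W) :
    inner ℂ (ip z) (ip (aa Dg S l φ)) = 0 := by
  have := d.aah l φ z
  rw [(ih m h).aa e k, map_zero, inner_zero_left] at this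
  exact neg_eq_zero.1 this.symm

theorem prim {φ : W} (h : Gn Dg l φ) : K (aa Dg S l φ) = 0 := by
  have g : Gn Dg (l - 2) (K (aa Dg S l φ)) := d.gk (h.map (d.na l l))
  have o2 : ∀ ψ, inner ℂ (ip (K (aa Dg S l φ))) (ip (aa Dg S l ψ)) = 0 :=
    d.orth ih (by simp) (by simp) g
  have k := d.kk (aa Dg S l φ) (K (aa Dg S l φ))
  rw [d.orth ih (m := l - 2 - 2) (by simp) (by simp) (d.gk g), (ih _ (by simp) _ g).2,
    s_eq (Dg := Dg) (S := S) l (aa Dg S l φ), d.na] at k
  simp only [map_add, map_smul, inner_add_right, inner_smul_left, inner_smul_right, o2, mul_zero,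
    add_zero, sub_zero, zero_add] at k
  exact d.z0 k

theorem aa2 {φ : W} (h : Gn Dg l φ) : aa Dg S l (aa Dg S l φ) = 0 := by
  refine h.ind (fun φ => aa Dg S l (aa Dg S l φ) = 0) (by simp) fun φ h e => ?_
  have g : Gn Dg l (aa Dg S l φ) := h.map (d.na l l)
  have k := d.kk (aa Dg S l φ) (aa Dg S l (aa Dg S l φ))
  have e1 : nn Dg l (aa Dg S l (aa Dg S l φ)) = 0 := by rw [d.na, d.na, e]
  have e2 : inner ℂ (ip (aa Dg S l (aa Dg S l φ))) (ip (nn Dg l (aa Dg S l φ))) = 0 := by
    rw [d.aah, d.na, e, map_zero, inner_zero_right, neg_zero]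
  rw [d.prim ih h, d.prim ih g, s_eq (Dg := Dg) (S := S) l (aa Dg S l φ),
    s_eq (Dg := Dg) (S := S) l (aa Dg S l (aa Dg S l φ)), e1] at k
  simp only [map_add, map_smul, inner_add_right, inner_add_left, inner_smul_left,
    inner_smul_right, e2, map_zero, inner_zero_left, inner_zero_right, add_zero,
    Complex.conj_ofReal] at k
  rw [d.aah l (aa Dg S l φ) (aa Dg S l (aa Dg S l φ))] at k
  refine d.z0 ?_
  have hI : (4 : ℂ) * I ≠ 0 := mul_ne_zero (by norm_num) Complex.I_ne_zero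
  refine (mul_eq_zero.1 ?_).resolve_left hI
  linear_combination k

theorem aa0 {φ : W} (h : Gn Dg l φ) : aa Dg S l φ = 0 := by
  refine d.z0 ?_
  rw [d.aah, d.aa2 ih h, map_zero, inner_zero_right, neg_zero]

theorem low {p : W} (hp : K p = 0) (hs : S p = (l.re : ℂ) • p) (M : ℕ) :
    ∀ m : ℂ, m.re < 2 * M → m.re ≤ l.re - 2 → ∀ z, Gn Dg m z → inner ℂ (ip z) (ip p) = 0 := by
  induction M with
  | zero =>
    intro m h _ z k
    rw [d.neg (by simpa using h) k, map_zero, inner_zero_left]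
  | succ M iM =>
    intro m h h' z k
    have e := d.kk p z
    rw [iM (m - 2) (by push_cast at h; simp; linarith) (by simp; linarith) _ (d.gk k), hp, hs,
      (ih m h' z k).2] at e
    simp only [map_smul, inner_smul_left, inner_smul_right, map_zero, inner_zero_right, add_zero,
      Complex.conj_ofReal] at e
    have hI : (2 : ℂ) * I * ((m.re : ℂ) - l.re) ≠ 0 := by
      refine mul_ne_zero (mul_ne_zero (by norm_num) Complex.I_ne_zero) (sub_ne_zero.2 fun q => ?_)
      have := Complex.ofReal_injective q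
      linarith
    refine (mul_eq_zero.1 ?_).resolve_left hI
    linear_combination -e

theorem nn0 {φ : W} (h : Gn Dg l φ) : nn Dg l φ = 0 := by
  refine h.ind (fun φ => nn Dg l φ = 0) (by simp) fun φ h e => ?_
  have g : Gn Dg l (nn Dg l φ) := h.map fun _ => rfl
  have hp : K (nn Dg l φ) = 0 := by
    rw [← d.nk, nn_app, (ih _ (by simp) _ (d.gk h)).1, sub_self]
  have hs : S (nn Dg l φ) = (l.re : ℂ) • nn Dg l φ := by
    rw [s_eq (Dg := Dg) (S := S) l (nn Dg l φ), d.aa0 ih g, e, zero_add, add_zero]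
  obtain ⟨M, hM⟩ := exists_nat_gt l.re
  have k := d.kk (nn Dg l φ) φ
  rw [d.low ih hp hs M (l - 2) (by simp; linarith [Nat.cast_nonneg (α := ℝ) M]) (by simp) _
    (d.gk h), hp, hs, s_eq (Dg := Dg) (S := S) l φ, d.aa0 ih h] at k
  simp only [map_add, map_smul, inner_add_left, inner_smul_left, inner_smul_right, map_zero,
    inner_zero_right, add_zero, zero_add, Complex.conj_ofReal] at k
  refine d.z0 ?_
  have hI : (2 : ℂ) * I ≠ 0 := mul_ne_zero (by norm_num) Complex.I_ne_zero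
  refine (mul_eq_zero.1 ?_).resolve_left hI
  linear_combination -k

theorem step : Cn Dg S l := fun w h =>
  ⟨sub_eq_zero.1 (d.nn0 ih h), by
    rw [s_eq (Dg := Dg) (S := S) l w, d.aa0 ih h, d.nn0 ih h, zero_add, add_zero]⟩

end step

theorem cn (l : ℂ) : Cn Dg S l := by
  have : ∀ (N : ℕ) (l : ℂ), l.re < 2 * N → Cn Dg S l := by
    intro N
    induction N with
    | zero =>
      intro l h w k
      rw [d.neg (by simpa using h) k]
      simp
    | succ N iN =>
      intro l h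
      exact d.step fun m hm => iN m (by push_cast at h; linarith)
  obtain ⟨M, hM⟩ := exists_nat_gt |l.re|
  exact this M l (by linarith [le_abs_self l.re, Nat.cast_nonneg (α := ℝ) M])

/-- **generalized eigenvectors of `Dg` are eigenvectors, and `S` is the real part of the weight** -/
theorem main {l : ℂ} {w : W} {k : ℕ} (h : ((Dg - l • 1) ^ k) w = 0) :
    Dg w = l • w ∧ S w = (l.re : ℂ) • w := d.cn l w ⟨k, h⟩

theorem main' {l : ℂ} {w : W} (h : w ∈ Dg.maxGenEigenspace l) :
    Dg w = l • w ∧ S w = (l.re : ℂ) • w := by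
  obtain ⟨k, hk⟩ := (Module.End.mem_maxGenEigenspace Dg l w).1 h
  exact d.main hk

end Dat

end Vale.Agent.P352SL
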